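import Vale.Agent.Lib.P154Neg.B7.Data

/-!
# The merge of the second moment
-/

namespace Vale.Agent.Lib.P154Neg.B7

open Vale.Agent.Lib.P154 Vale.Agent.Lib.P154GW Vale.Agent.Lib.P154K Tp

lemma hPn (c : Tp) (_ : InSx 1 c) : 0 ≤ potL LPq c := by
  rw [hLPe]
  exact mul_nonneg (by norm_num) (p2T_nonneg c)

theorem pc0 : leafOK 103 28 112 (⟨1, 1, -2, 5, -1, -4, 0, 0, 0, 12⟩ : Trg) (⟨0, 0, 0, -1, -1, 2, -4, 2, 2, 21⟩ : Trg) LPq 2 4 1048576 RPq
    ⟨[(0, 6031184), (1, -13762955), (2, 15593251), (3, -8779493), (4, 1966589)], 10532, 16384, 16385, 16384, 4, 1⟩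
    ⟨[(0, 4924516), (1, -9229375), (2, 8627971), (3, -4023001), (4, 748465)], 15798, 16384, 21066, 16384, 1, 4⟩
    ⟨[(0, 5105545), (1, -9930882), (2, 9646050), (3, -4678754), (4, 906617)], 15213, 16384, 19310, 16384, 1, 4⟩ = true := by
  decide +kernel

theorem pl0 : HoldsOn LPq RPq (Trg.left (Trg.left (chamber 1 1))) (chamberN 2 7) :=
  HoldsOn.congrT (by decide +kernel) (by decide +kernel)
    (holdsOn_of_leafOK hLPne hRPne (by norm_num) (by norm_num) hLPq hRPq hPn pc0)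

theorem pc1 : leafOK 109 29 112 (⟨1, 1, -2, 2, 2, -4, 5, -1, -4, 12⟩ : Trg) (⟨-5, 1, 4, 0, 0, 0, -2, -2, 4, 42⟩ : Trg) LPq 2 4 1048576 RPq
    ⟨[(0, 5732186), (1, -12494086), (2, 13576507), (3, -7356620), (4, 1590589)], 12288, 16384, 16385, 16384, 4, 1⟩
    ⟨[(0, 5048811), (1, -9713708), (2, 9334532), (3, -4480304), (4, 859245)], 15798, 16384, 19310, 16384, 1, 4⟩
    ⟨[(0, 5048811), (1, -9713708), (2, 9334532), (3, -4480304), (4, 859245)], 15798, 16384, 19310, 16384, 1, 4⟩ = true := by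
  decide +kernel

theorem pl1 : HoldsOn LPq RPq (Trg.right (Trg.left (chamber 1 1))) (Trg.left (chamberN 2 7)) :=
  HoldsOn.congrT (by decide +kernel) (by decide +kernel)
    (holdsOn_of_leafOK hLPne hRPne (by norm_num) (by norm_num) hLPq hRPq hPn pc1)

theorem pc2 : leafOK 111 29 107 (⟨1, 1, -2, 2, 2, -4, 5, -1, -4, 12⟩ : Trg) (⟨-4, 2, 2, -5, 1, 4, -8, 4, 4, 42⟩ : Trg) LPq 2 4 1048576 RPq
    ⟨[(0, 6659316), (1, -16829186), (2, 21156016), (3, -13230128), (4, 3292885)], 10532, 13165, 15799, 16384, 2, 2⟩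
    ⟨[(0, 4466964), (1, -7603797), (2, 6464996), (3, -2745525), (4, 465901)], 17554, 19310, 21066, 16384, 1, 1⟩
    ⟨[(0, 5339197), (1, -10849311), (2, 10997530), (3, -5561074), (4, 1122250)], 14043, 16237, 18432, 16384, 1, 1⟩ = true := by
  decide +kernel

theorem pl2 : HoldsOn LPq RPq (Trg.right (Trg.left (chamber 1 1))) (Trg.left (Trg.right (chamberN 2 7))) :=
  HoldsOn.congrT (by decide +kernel) (by decide +kernel)
    (holdsOn_of_leafOK hLPne hRPne (by norm_num) (by norm_num) hLPq hRPq hPn pc2)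

theorem pc3 : leafOK 110 29 112 (⟨1, 1, -2, 2, 2, -4, 5, -1, -4, 12⟩ : Trg) (⟨-4, 2, 2, 0, 0, 0, -5, 1, 4, 42⟩ : Trg) LPq 2 4 1048576 RPq
    ⟨[(0, 5732186), (1, -12494086), (2, 13576507), (3, -7356620), (4, 1590589)], 12288, 16384, 16385, 16384, 4, 1⟩
    ⟨[(0, 4995299), (1, -9509982), (2, 9043941), (3, -4296252), (4, 815570)], 16383, 16384, 19310, 16384, 1, 4⟩
    ⟨[(0, 5175733), (1, -10210928), (2, 10064580), (3, -4956428), (4, 975619)], 15213, 16384, 18432, 16384, 1, 2⟩ = true := by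
  decide +kernel

theorem pl3 : HoldsOn LPq RPq (Trg.right (Trg.left (chamber 1 1))) (Trg.right (Trg.right (chamberN 2 7))) :=
  HoldsOn.congrT (by decide +kernel) (by decide +kernel)
    (holdsOn_of_leafOK hLPne hRPne (by norm_num) (by norm_num) hLPq hRPq hPn pc3)

theorem pc4 : leafOK 105 28 112 (⟨5, -1, -4, 8, -4, -4, 0, 0, 0, 12⟩ : Trg) (⟨0, 0, 0, -1, -1, 2, -4, 2, 2, 21⟩ : Trg) LPq 2 4 1048576 RPq
    ⟨[(0, 6991494), (1, -17973706), (2, 22497535), (3, -13797048), (4, 3330301)], 7021, 16384, 16385, 16384, 4, 1⟩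
    ⟨[(0, 5100009), (1, -9885149), (2, 9545276), (3, -4592261), (4, 880701)], 14043, 16384, 21066, 16384, 1, 4⟩
    ⟨[(0, 4872885), (1, -9038321), (2, 8363458), (3, -3860613), (4, 711167)], 16383, 16384, 21066, 16384, 1, 4⟩ = true := by
  decide +kernel

theorem pl4 : HoldsOn LPq RPq (Trg.right (chamber 1 1)) (chamberN 2 7) :=
  HoldsOn.congrT (by decide +kernel) (by decide +kernel)
    (holdsOn_of_leafOK hLPne hRPne (by norm_num) (by norm_num) hLPq hRPq hPn pc4)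

theorem pc5 : leafOK 103 28 117 (⟨1, 1, -2, 5, -1, -4, 0, 0, 0, 12⟩ : Trg) (⟨0, 0, 0, -1, 2, -1, -4, 2, 2, 21⟩ : Trg) LPq 2 4 1048576 RPq
    ⟨[(0, 5965440), (1, -13457962), (2, 15069756), (3, -8384506), (4, 1855848)], 10532, 16384, 16970, 16384, 8, 1⟩
    ⟨[(0, 4872885), (1, -9038321), (2, 8363458), (3, -3860613), (4, 711167)], 16383, 16384, 21066, 16384, 1, 4⟩
    ⟨[(0, 5380894), (1, -11031913), (2, 11296226), (3, -5777409), (4, 1180778)], 14043, 16384, 17555, 16384, 1, 2⟩ = true := by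
  decide +kernel

theorem pl5 : HoldsOn LPq RPq (Trg.left (Trg.left (chamber 1 1))) (chamberNR 2 7) :=
  HoldsOn.congrT (by decide +kernel) (by decide +kernel)
    (holdsOn_of_leafOK hLPne hRPne (by norm_num) (by norm_num) hLPq hRPq hPn pc5)

theorem pc6 : leafOK 109 29 112 (⟨1, 1, -2, 2, 2, -4, 5, -1, -4, 12⟩ : Trg) (⟨-5, 4, 1, 0, 0, 0, -2, 4, -2, 42⟩ : Trg) LPq 2 4 1048576 RPq
    ⟨[(0, 5489981), (1, -11471776), (2, 11961261), (3, -6224238), (4, 1293348)], 13165, 16384, 17555, 16384, 1, 1⟩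
    ⟨[(0, 4931995), (1, -9265183), (2, 8689374), (3, -4068299), (4, 760689)], 16383, 16384, 20188, 16384, 1, 4⟩
    ⟨[(0, 5495315), (1, -11509803), (2, 12043546), (3, -6296063), (4, 1315581)], 14043, 16384, 16385, 16384, 4, 1⟩ = true := by
  decide +kernel

theorem pl6 : HoldsOn LPq RPq (Trg.right (Trg.left (chamber 1 1))) (Trg.left (chamberNR 2 7)) :=
  HoldsOn.congrT (by decide +kernel) (by decide +kernel)
    (holdsOn_of_leafOK hLPne hRPne (by norm_num) (by norm_num) hLPq hRPq hPn pc6)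

theorem pc7 : leafOK 111 29 112 (⟨1, 1, -2, 2, 2, -4, 5, -1, -4, 12⟩ : Trg) (⟨-4, 2, 2, -5, 4, 1, -8, 4, 4, 42⟩ : Trg) LPq 2 4 1048576 RPq
    ⟨[(0, 6598446), (1, -16514883), (2, 20551307), (3, -12716281), (4, 3130161)], 10532, 13312, 16092, 16384, 2, 4⟩
    ⟨[(0, 4466964), (1, -7603797), (2, 6464996), (3, -2745525), (4, 465901)], 17554, 19310, 21066, 16384, 1, 1⟩
    ⟨[(0, 5470929), (1, -11399934), (2, 11858731), (3, -6158428), (4, 1277292)], 14043, 15799, 17555, 16384, 1, 1⟩ = true := by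
  decide +kernel

theorem pl7 : HoldsOn LPq RPq (Trg.right (Trg.left (chamber 1 1))) (Trg.left (Trg.right (chamberNR 2 7))) :=
  HoldsOn.congrT (by decide +kernel) (by decide +kernel)
    (holdsOn_of_leafOK hLPne hRPne (by norm_num) (by norm_num) hLPq hRPq hPn pc7)

theorem pc8 : leafOK 115 30 112 (⟨1, 1, -2, 2, 2, -4, 5, -1, -4, 12⟩ : Trg) (⟨-5, 4, 1, -8, 4, 4, 0, 0, 0, 84⟩ : Trg) LPq 2 4 1048576 RPq
    ⟨[(0, 5568818), (1, -11813007), (2, 12512403), (3, -6618177), (4, 1398539)], 13458, 16384, 16385, 16384, 4, 1⟩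
    ⟨[(0, 5040031), (1, -9684111), (2, 9297933), (3, -4460777), (4, 855500)], 16383, 16384, 18725, 16384, 1, 4⟩
    ⟨[(0, 5305021), (1, -10732915), (2, 10854410), (3, -5487279), (4, 1109339)], 15213, 16384, 16970, 16384, 1, 1⟩ = true := by
  decide +kernel

theorem pl8 : HoldsOn LPq RPq (Trg.right (Trg.left (chamber 1 1))) (Trg.left (Trg.right (Trg.right (chamberNR 2 7)))) :=
  HoldsOn.congrT (by decide +kernel) (by decide +kernel)
    (holdsOn_of_leafOK hLPne hRPne (by norm_num) (by norm_num) hLPq hRPq hPn pc8)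

theorem pc9 : leafOK 116 30 102 (⟨1, 1, -2, 2, 2, -4, 5, -1, -4, 12⟩ : Trg) (⟨-5, 4, 1, -10, 8, 2, -8, 4, 4, 84⟩ : Trg) LPq 2 4 1048576 RPq
    ⟨[(0, 5875088), (1, -13148871), (2, 14693863), (3, -8198939), (4, 1827452)], 13165, 14701, 16238, 16384, 1, 1⟩
    ⟨[(0, 4621213), (1, -8139526), (2, 7162148), (3, -3148386), (4, 553126)], 17115, 18651, 20188, 16384, 1, 1⟩
    ⟨[(0, 5564420), (1, -11798062), (2, 12493550), (3, -6607628), (4, 1396309)], 14043, 15506, 16970, 16384, 1, 1⟩ = true := by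
  decide +kernel

theorem pl9 : HoldsOn LPq RPq (Trg.right (Trg.left (chamber 1 1))) (Trg.right (Trg.right (Trg.right (chamberNR 2 7)))) :=
  HoldsOn.congrT (by decide +kernel) (by decide +kernel)
    (holdsOn_of_leafOK hLPne hRPne (by norm_num) (by norm_num) hLPq hRPq hPn pc9)

theorem pc10 : leafOK 105 28 112 (⟨5, -1, -4, 8, -4, -4, 0, 0, 0, 12⟩ : Trg) (⟨0, 0, 0, -1, 2, -1, -4, 2, 2, 21⟩ : Trg) LPq 2 4 1048576 RPq
    ⟨[(0, 6991494), (1, -17973706), (2, 22497535), (3, -13797048), (4, 3330301)], 7021, 16384, 16385, 16384, 4, 1⟩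
    ⟨[(0, 4872885), (1, -9038321), (2, 8363458), (3, -3860613), (4, 711167)], 16383, 16384, 21066, 16384, 1, 4⟩
    ⟨[(0, 5100009), (1, -9885149), (2, 9545276), (3, -4592261), (4, 880701)], 14043, 16384, 21066, 16384, 1, 4⟩ = true := by
  decide +kernel

theorem pl10 : HoldsOn LPq RPq (Trg.right (chamber 1 1)) (chamberNR 2 7) :=
  HoldsOn.congrT (by decide +kernel) (by decide +kernel)
    (holdsOn_of_leafOK hLPne hRPne (by norm_num) (by norm_num) hLPq hRPq hPn pc10)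


lemma hPP : HoldsOn LPq RPq (chamber 1 1) (chamberN 2 7) :=
  (HoldsOn.splitA (by decide) (HoldsOn.splitA (by decide) pl0 (HoldsOn.splitB (by decide) pl1 (HoldsOn.splitB (by decide) pl2 pl3))) pl4)

lemma hPM : HoldsOn LPq RPq (chamber 1 1) (chamberNR 2 7) :=
  (HoldsOn.splitA (by decide) (HoldsOn.splitA (by decide) pl5 (HoldsOn.splitB (by decide) pl6 (HoldsOn.splitB (by decide) pl7 (HoldsOn.splitB (by decide) pl8 pl9)))) pl10)

end Vale.Agent.Lib.P154Neg.B7
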